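import Crest.Agent.X212.Loc45.Ix

/-! # Row 212, GL-LOCS, leaf GLUE (helper44): the two sides of a clopen set -/

set_option autoImplicit false
noncomputable section
open Set TopologicalSpace

namespace Crest.Agent.X212.Ub44
open An An.Job M Gj67 Loc45 Loc45.Ix Rsp69 Rsp69.Cx

variable {Wi : Type} {X : Mf 4} {A κ lam : Type} [Fintype A] [Fintype κ] [Fintype lam]
  [DecidableEq lam] {M : Mark X A κ} {W : World M} {L : ML M lam} {Λ : Lns W L}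
  {A' h : Type} [Fintype A'] [DecidableEq A'] [Fintype h] {r n : ℕ}
  {J : Job Wi Λ A' h r n} {σ : Cel A'} {a : A'}
  {U Up R : Type} [NormedAddCommGroup U] [NormedSpace ℝ U] [NormedAddCommGroup Up]
  [NormedSpace ℝ Up] [NormedAddCommGroup R] [NormedSpace ℝ R]
  {d : Dat J σ a U Up R} {q₀ : Wi →₀ ℝ} {δ : ℝ} {k j : ℕ} {I : Ix d q₀ δ k}
  {O : Clopens (W.Z (J.cf a)).M} {t : ℝ} {z : I.𝒟 × ℝ} {x : (W.Z (J.cf a)).M}

theorem η0 (hz : z.2 + t ≤ I.Q z.1) (hx : x ∉ O) : (I.cx O).η t z x = 0 :=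
  wc_zero (lt_of_lt_of_le (by linarith [not_le.1 (mt (tm_le (I := I) (e := z.1)) hx)]) (le_abs_self _))

theorem η1 (hx : x ∈ O) : (I.cx O).η t z x = (I.cx ⊤).η t z x :=
  congrArg _ ((tm_of hx).trans (tm_of (O := ⊤) trivial).symm)

theorem hk {N : Type} [NormedAddCommGroup N] [NormedSpace ℝ N] {w : I.𝒟 → ℝ → ℝ}
    {f : I.𝒟 → (W.Z (J.cf a)).M → N} (h : (I.cx O).Hk (N := fun _ => N) w j f)
    (h' : (I.cx Oᶜ).Hk (N := fun _ => N) w j f) : (I.cx ⊤).Hk (N := fun _ => N) w j f := by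
  obtain ⟨L, hL, h⟩ := h
  obtain ⟨L', hL', h'⟩ := h'
  refine ⟨L + L', by positivity, fun t ht => (NB.add ((h t ht).mono (by linarith))
    ((h' t ht).mono (by linarith))).congr (lw_in.mono fun z hz => funext fun x => ?_)⟩
  have e : z.2 + t ≤ I.Q z.1 := by linarith [hz.2 _ rfl]
  by_cases hx : x ∈ O
  · rw [η1 hx, η0 (O := Oᶜ) e (not_not.2 hx), zero_smul, add_zero]
  · rw [η0 e hx, η1 (O := Oᶜ) hx, zero_smul, zero_add]

/-- **LEAF GLUE** -/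
theorem glS (I : Ix d q₀ δ k) : I.GlS := fun _ _ _ h h' =>
  ⟨⟨fun i => hk (h.D.b i) (h'.D.b i), hk h.D.d h'.D.d⟩,
    ⟨fun i => hk (h.C.b i) (h'.C.b i), hk h.C.d h'.C.d⟩⟩

end Crest.Agent.X212.Ub44
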