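import Crest.Agent.X212.Gl67.Jet
import Crest.Agent.X212.Prm93.Chg

/-! # Row 212, GL (helper44): local norms under a change of frame -/

set_option autoImplicit false
set_option linter.unusedSectionVars false
noncomputable section
open scoped Manifold ContDiff Topology ENNReal NNReal
open MeasureTheory Set Function Filter Real

namespace Crest.Agent.X212.Ub44
open An Sob92 Prm93 Gl67

variable {E : Type} [NormedAddCommGroup E] [NormedSpace ℝ E] [FiniteDimensional ℝ E]
  [MeasurableSpace E] [BorelSpace E]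
  {HM : Type} [TopologicalSpace HM] {I : ModelWithCorners ℝ E HM}
  {M : Type} [TopologicalSpace M] [ChartedSpace HM M] [IsManifold I ∞ M]
  [MeasurableSpace M] [T2Space M] [BorelSpace M] {ι : Type} [Fintype ι]
  {V : Type} [NormedAddCommGroup V] [NormedSpace ℝ V] {F F' : Pre I M ι} {A : ι → ι → M → ℝ}
  {x : M} {k : ℕ} {C : ℝ}

theorem J_sum {κ : Type} (s : Finset κ) {u : κ → M → V} (hu : ∀ b, Sm I (u b)) :
    J F k (fun y => ∑ b ∈ s, u b y) x ≤ 2 ^ s.card * ∑ b ∈ s, J F k (u b) x := by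
  classical
  induction s using Finset.induction_on with
  | empty => simpa using (J_off (by simp)).le
  | insert a s ha ih =>
    simp only [Finset.sum_insert ha, Finset.card_insert_of_notMem ha, pow_succ]
    refine (J_add isOpen_univ (mem_univ x) k (smO (hu a))
      (smO (contMDiff_finsetSum fun b _ => hu b))).trans ?_
    nlinarith [mul_le_mul_of_nonneg_right (one_le_pow₀ (n := s.card) one_le_two)
      (J_nonneg (F := F) (x := x) k (u a))]

/-- the constant in `J_mix` -/
def cJ (n : ℕ) (C : ℝ) : ℕ → ℝ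
  | 0 => 1
  | k + 1 => 1 + n * (cJ n C k * (2 ^ n * ((2 * n + 3) ^ k * C ^ 2)))

theorem cJ0 (n : ℕ) (C : ℝ) : ∀ k, 0 ≤ cJ n C k
  | 0 => zero_le_one
  | k + 1 => by have := cJ0 n C k; rw [cJ]; positivity

theorem J_mix (h : Mix F F' A) (hA : ∀ a b, Sm I (A a b)) (k : ℕ) : (∀ a b, F.CB k (A a b) C) →
    ∀ {u : M → V}, Sm I u → J F' k u x ≤ cJ (Fintype.card ι) C k * J F k u x := by
  induction k with
  | zero => exact fun _ _ _ => (one_mul _).ge
  | succ k ih =>
    intro hC u hu
    have hC' := fun a b => CB_of_le (hC a b) k.le_succ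
    have c0 := cJ0 (Fintype.card ι) C k
    have h1 := Finset.sum_le_card_nsmul Finset.univ _ _ fun a _ =>
      (ih hC' (F'.sm_D hu a)).trans (mul_le_mul_of_nonneg_left (((congrArg (J F k · x)
        (h.D a u)).trans_le (J_sum _ fun b => (hA a b).smul (F.sm_D hu b))).trans
        (mul_le_mul_of_nonneg_left (Finset.sum_le_sum fun b _ =>
          J_smul k (hA a b) (hC' a b) (F.sm_D hu b)) (by positivity))) c0)
    rw [nsmul_eq_mul, Finset.card_univ, ← Finset.mul_sum] at h1
    have h2 : 0 ≤ ∑ a, J F k (F.D a u) x := Finset.sum_nonneg fun _ _ => J_nonneg k _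
    have h3 : 0 ≤ Fintype.card ι * (cJ (Fintype.card ι) C k * (2 ^ Fintype.card ι *
      ((2 * Fintype.card ι + 3) ^ k * C ^ 2))) * ‖u x‖ ^ 2 := by positivity
    rw [J, J, cJ]
    linarith

theorem N_mix (h : Mix F F' A) (hA : ∀ a b, Sm I (A a b)) (hC : ∀ a b, F.CB k (A a b) C) {c : ℝ≥0}
    (hμ : F'.μ ≤ c • F.μ) {u : M → V} {g : M → ℝ} {S O : Set M} (hO : IsOpen O)
    (hS : MeasurableSet S) (e : S ⊆ O) (hu : SmO I O u) :
    N F' g S k u ≤ ENNReal.ofReal (c * cJ (Fintype.card ι) C k) * N F g S k u := by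
  rw [N, N, ENNReal.ofReal_mul c.coe_nonneg, mul_assoc, ← lintegral_const_mul' _ _ ENNReal.ofReal_ne_top,
    ENNReal.ofReal_coe_nnreal, ← smul_eq_mul, ← lintegral_smul_measure, ← Measure.restrict_smul]
  refine (lintegral_mono' (Measure.restrict_mono le_rfl hμ) le_rfl).trans
    (setLIntegral_mono' hS fun x hx => ?_)
  obtain ⟨χ, c1, -, c2, -, c3⟩ := Met55.exists_bump (I := I) (hO.mem_nhds (e hx))
  have e' : u =ᶠ[𝓝 x] fun y => χ y • u y := c3.mono fun y hy => by simp [hy]
  rw [← ENNReal.ofReal_mul (cJ0 _ _ _), J_congr e', J_congr e', mul_left_comm]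
  exact ENNReal.ofReal_le_ofReal (mul_le_mul_of_nonneg_left
    (J_mix h hA k hC (Met55.sm_cut c1 c2 hu)) (exp_pos _).le)

end Crest.Agent.X212.Ub44
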