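import Crest.Agent.X212.Loc45.Ix
import Crest.Agent.X212.Gla92.Cf
import Crest.Agent.X212.Ub44.Mix

/-! # Row 212, GL-LOCS, leaf UB (helper44): uniform bounds in the moving frames -/

set_option autoImplicit false
set_option linter.unusedSectionVars false
set_option maxSynthPendingDepth 3
noncomputable section
open scoped Manifold ContDiff Topology NNReal
open MeasureTheory Set Function Filter Real Metric

namespace Crest.Agent.X212.Ub44
open An Sob92 Prm93 Mod61 Map77 Gl67 Gla92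
open Gj67 (FU SU UBn)
open Gb50 (EC)
open Loc45 (HB UbStmt)
open Ell97 (UB)
open Std94 (Kl)

variable {E : Type} [NormedAddCommGroup E] [NormedSpace ℝ E] [FiniteDimensional ℝ E]
  [MeasurableSpace E] [BorelSpace E]
  {HM : Type} [TopologicalSpace HM] {I : ModelWithCorners ℝ E HM} [I.Boundaryless]
  {M : Type} [TopologicalSpace M] [ChartedSpace HM M] [IsManifold I ∞ M]
  [MeasurableSpace M] [T2Space M] [BorelSpace M] [SecondCountableTopology M]
  {ι lam h : Type} [Fintype ι] [Fintype lam] [Fintype h]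
  {T U Up R : Type} [NormedAddCommGroup T] [NormedSpace ℝ T] [NormedAddCommGroup U]
  [NormedSpace ℝ U] [NormedAddCommGroup Up] [NormedSpace ℝ Up] [NormedAddCommGroup R]
  [NormedSpace ℝ R] {N r n : ℕ} {Jc : En (Fin N)} {J : Type} {F : J → Pre I M ι}
  {A V : Type} [NormedAddCommGroup A] [NormedSpace ℝ A] [NormedAddCommGroup V] [NormedSpace ℝ V]

theorem le_exp {μ : Measure M} {g : M → ℝ} {c : ℝ} (h : ∀ x, ‖g x‖ ≤ c) :
    μ ≤ (exp c).toNNReal • μ.withDensity fun x => ENNReal.ofReal (exp (g x)) := by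
  rw [ENNReal.smul_def, ← withDensity_smul' _ _ ENNReal.coe_ne_top]
  refine (withDensity_one (μ := μ)).symm.trans_le (withDensity_mono (.of_forall fun x => ?_))
  rw [Pi.smul_apply, smul_eq_mul, ← ENNReal.ofReal, ← ENNReal.ofReal_mul (exp_pos _).le, ← exp_add]
  exact ENNReal.one_le_ofReal.2 (one_le_exp (by linarith [(abs_le.1 (h x)).1]))

theorem ec {f : J → M → A} (h : UB F f) : EC ⊤ fun i C => (F i).CBs (f i) C :=
  .of (fun _ _ _ => Ell97.CBs_mono) (h.imp fun _ k => .of_forall k)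

theorem ge (D : ℕ → ℝ) : EC ⊤ fun (_ : J) C => ∀ k, D k ≤ C k :=
  .of (fun _ _ _ k e n => (k n).trans (e n)) ⟨D, .of_forall fun _ _ => le_rfl⟩

theorem hb {w : J → M → V} {K : ℝ}
    (hw : ∀ i, Sm I (w i) ∧ HasCompactSupport (w i) ∧ N2 (F i) n (w i) ≤ K) {f g : J → M → A}
    {L : J → M → V →L[ℝ] A} (hf : UB F f) (hL : UB F L) (e : ∀ i x, g i x = f i x + L i x (w i x)) :
    EC ⊤ fun i C => HB (F i) n C (g i) ∧ (F i).Cb (g i) := by
  obtain ⟨D, hD⟩ := hL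
  refine ((ec hf).and (ge fun _ => (cK ι n * |D n|) ^ 2 * K)).mono (.of_forall fun i C k => ?_)
  obtain ⟨w1, w2, w3⟩ := hw i
  have s := (hD i).1.clm_apply w1
  have c := hcs_bil_right (.id ℝ _) (L i) w2
  rw [show g i = _ from funext (e i)]
  exact ⟨⟨_, by simpa using k.1, s, c, ((N2_app (hD i).1 w1 ((hD i).2 n) (FL_of_hcs n w1 w2)).trans
    (mul_le_mul_of_nonneg_left w3 (sq_nonneg _))).trans (k.2 0)⟩, Cb_add ⟨_, k.1⟩ (Cb_of_hcs s c)⟩

variable (I M ι lam h T U Up R Jc r) in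
/-- the index set -/
structure Z (r₀ : ℝ) (C : ℕ → ℝ) (n : ℕ) where
  𝔉 : Fam I M ι lam T
  s : Sid 𝔉 N Jc U Up R
  c : Cm N r h R
  w : Sec I s.bd.pC
  q : PP T U r h N
  ok : s.OK
  fu : FU 𝔉 r₀ C
  su : SU s C
  h1 : ‖q.1‖ ≤ r₀
  h2 : ‖q.2.1‖ ≤ 1
  h3 : Gl67.N 𝔉.F0.toPre 0 univ n w.1 ≤ 1

/-- **LEAF UB** -/
theorem ub : UbStmt I M ι lam h T U Up R Jc r := fun r₀ C n => by
  let Z := Z I M ι lam h T U Up R r Jc r₀ C n
  let P : Z → Pre I M ι := fun z => z.𝔉.F0.toPre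
  let G : Z → Pre I M ι := fun z => (z.𝔉.G z.q.1).F.toPre
  have b : ∀ z : Z, z.q.1 ∈ closedBall 0 r₀ := fun z => mem_closedBall_zero_iff.2 z.h1
  have hq := fun z : Z => z.fu.sub (b z)
  have F := fun z : Z => z.ok.fam
  have u0 : ∀ {A : Type} [NormedAddCommGroup A] [NormedSpace ℝ A] {f : Z → T → M → A},
      (∀ z, SB (P z) z.𝔉.Q (f z)) → (∀ z, UBn (P z) r₀ C (f z)) →
      ∀ z, (P z).CBs (f z z.q.1) C := fun h1 h2 z => ⟨Cb.sm ((h1 z).cb _ (hq z)), fun k => by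
    have := CB_mono (B.CB _) ((norm_iteratedFDeriv_zero ..).symm.trans_le (h2 z k 0 _ (b z)))
    rwa [fn_toB ((h1 z).cb _ (hq z))] at this⟩
  have s := fun a b => u0 (fun z => (F z).sS a b) fun z => z.fu.S a b
  have mx := fun z => (F z).mix _ (hq z)
  have up : ∀ {A : Type} [NormedAddCommGroup A] [NormedSpace ℝ A] {f : Z → M → A},
      (∀ z, (P z).CBs (f z) C) → UB G f := fun k => Mon62.ub_mix mx (fun a b => ⟨C, s a b⟩) ⟨C, k⟩
  have S := fun a b => up (s a b)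
  have ρ := fun a => up fun z => z.su.ρ a
  choose g g1 g2 g3 using fun z : Z => z.fu.μ
  have gb := fun z => CB_bound ((u0 g1 g2 z).2 0)
  have m1 : ∀ z, (G z).μ ≤ (exp (C 0)).toNNReal • (P z).μ := fun z => (g3 z _ (hq z)).trans_le
    (dens_le fun x => (Real.norm_of_nonneg (exp_pos _).le).trans_le
      (exp_le_exp.2 (abs_le.1 (gb z x)).2))
  have m2 : ∀ z, (P z).μ ≤ (exp (C 0)).toNNReal • (G z).μ := fun z =>
    (le_exp (gb z)).trans_eq (congrArg _ (g3 z _ (hq z)).symm)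
  obtain ⟨D, hD⟩ := UB.unif fun a : ι × ι =>
    up (u0 (fun z => (F z).sSi a.1 a.2) fun z => z.fu.Si a.1 a.2)
  have w : ∀ z : Z, Sm I z.w.1 ∧ HasCompactSupport z.w.1 ∧
      N2 (G z) n z.w.1 ≤ cN ι ι (exp (C 0)).toNNReal (C n) n ^ 2 := fun z => by
    obtain ⟨w1, w2, -⟩ := z.w.2
    have := z.h3
    rw [N_eq (.refl _) (FL_of_hcs n w1 w2), ENNReal.ofReal_le_one] at this
    exact ⟨w1, w2, (nrm_sq _ _).symm.trans_le (pow_le_pow_left₀ (nrm_nonneg _ _)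
      (((mx z).nrm (fun a b => (s a b z).1) (m1 z) n (fun a b => (s a b z).2 n) w1 w2).trans
        (mul_le_of_le_one_right (cN_nonneg _ _ _) (nrm_le_of_sq zero_le_one (by simpa)))) 2)⟩
  let K := ubK G
  have i : K.mem fun q => idx (q.1.𝔉.S q.1.q.1 q.2) (.id ℝ (HS (Fin N))) :=
    Kl.idx (fun a b => tk (S a b)) (K.const _)
  have u : UB G fun z _ => z.q.2.1 :=
    ⟨fun _ => 1, fun z => ⟨contMDiff_const, fun k => CB_mono (CB_const k _) z.h2⟩⟩
  have W := fun a => hb w (g := fun z => ((z.s.cfg z.c z.w.1 z.q).W a : M → En (Fin N))) (fk (K.add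
    (K.add (K.add (Kl.fsum _ fun b => Kl.smul (tk (S a b)) (tk (up fun z => z.su.A b)))
    (Kl.fsum _ fun b => Kl.fsum _ fun l => Kl.smul (tk (up (u0 (fun z => (F z).scf a b l)
      fun z => z.fu.cf a b l))) (Kl.mulL (tk (ρ b)) (tk (ρ l)))))
    (Kl.smul (tk (up (u0 (fun z => (F z).sla a) fun z => z.fu.la a)))
      (Kl.mulL (K.const Jc) (tk (up fun z => z.su.p)))))
    (Kl.clm (opL ∘L pj _ a) (K.app i (K.app (tk (up fun z => z.su.b)) (tk u))))))
    (fk (Kl.comp (K.const (opL ∘L pj _ a)) (Kl.comp i (K.const fa)))) fun z x =>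
      (congrArg (_ + ·) ((map_add (opL ∘L pj _ a ∘L idx _ (.id ℝ _)) _ _).trans (add_comm _ _))).trans
        (add_assoc _ _ _).symm
  have Φ := hb w (g := fun z => z.s.Φ0 + fun x => fp (z.w.1 x)) (up fun z => z.su.Φ)
    (UB.const fp) fun _ _ => rfl
  have pg : UB (N := CL (HS (Fin N)) (HS (Fin N))) G fun z => z.s.md.pg :=
    ub_congr (fk (Kl.pgF (K.const Jc) (fun a => tk (ρ a)) (tk (up fun z => z.su.j))))
      fun z => funext fun x => Std94.pg_eq (F z).B (Std94.pmx z.ok.ok x)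
  have ht := fun a => ub_congr (UB.sum fun b => (S a b).smul (up fun z => z.su.h b))
    fun z => (mx z).D a z.s.ht
  obtain ⟨C', k⟩ := ((((ec (up fun z => z.su.p)).and (EC.all fun a => ec (ρ a))).and
    ((ec (up fun z => z.su.j)).and (ec pg))).and (((EC.all fun a => EC.all fun b => EC.all fun e =>
      EC.all fun f => ec (up fun z => z.fu.o a b e f)).and (EC.all fun a => ec (ht a))).and
    (((EC.all W).and Φ).and (ge fun k => max (max (C k) (exp (C 0)))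
      ((exp (C 0)).toNNReal * cJ (Fintype.card ι) (D k) k))))).ex
  refine ⟨C', fun 𝔉 s c w hw q ok fu su h1 h2 h3 => ?_⟩
  let z : Z := ⟨𝔉, s, c, ⟨w, hw⟩, q, ok, fu, su, h1, h2, h3⟩
  obtain ⟨⟨⟨k1, k2⟩, k3, k4⟩, ⟨k5, k6⟩, ⟨k7, k8⟩, k9⟩ := eventually_top.1 k z
  simp only [max_le_iff] at k9
  have t := Ell97.Tame_mono (fu.tG _ (b z)) fun k => (k9 k).1.1
  have o := ok.fam.G _ (hq z)
  have cn := conn_cfg ok c ⟨w, hw⟩ (hq z)
  exact ⟨⟨⟨ok.fam.B, o, ok.ok, cn, ⟨_, t⟩, fun a => (k7 a).2, _, k4⟩,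
    ⟨ok.ok, cn, Cb.sm k8.2, fun x => (map_add _ _ _).trans
      (congrArg₂ _ (ok.pos x) (fp_mem ok ⟨w, hw⟩ x)), .inl rfl⟩, k8.2, ⟨_, k1⟩, fun a => ⟨_, k2 a⟩,
    _, k3⟩, t, o.vol, k1, k2, k3, k4, k5, o.P ▸ t.P, k6, fun a => (k7 a).1, k8.1,
    (m1 z).trans (smul_mono (Real.toNNReal_le_toNNReal (k9 0).1.2)), fun V _ _ k f g A O a1 a2 a3 a4 =>
      (N_mix (Mon62.mix_inv ok.fam (hq z)) (fun a b => (hD z (a, b)).1) (fun a b => (hD z (a, b)).2 k)
        (m2 z) a1 a2 a3 a4).trans (mul_le_mul_left (ENNReal.ofReal_le_ofReal (k9 k).2) _)⟩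

end Crest.Agent.X212.Ub44
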